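import Vale.Agent.P242X.P242.H155.BlkT
import Vale.Agent.P242X.P242.H446.Maps
import Vale.Agent.P242X.P242.H607.Low
import Vale.Agent.P242X.P242.H744.DropE
import Vale.Agent.P242X.P242.H744.NuC
import Vale.Agent.P242X.P242.H751.BlkF
import Vale.Agent.P242X.P242.H597.PreX
import Vale.Agent.P242X.P242.H100.H5
import Vale.Agent.P242X.P242.H200.H5Top
import Vale.Agent.P242X.P242.H254.E1m
import Vale.Agent.P242X.P242.H937.SBW
import Vale.Agent.P242X.P242.H852.Vx
import Vale.Agent.P242X.P242.H703.HfL
import Vale.Agent.P242.H696.PartB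
import Vale.Agent.P242X.P242.H71.Top
import Vale.Agent.P242X.P242.H448.Fin

/-! P242 (helper358): continuous check of the assembly: everything that is proved is plugged in,
the remaining inputs are hypotheses. -/

set_option linter.all false

open MeasureTheory

universe u

namespace Vale.Agent.P242.H358

open H71 H771

/-- `SB` for every space -/
def AllEnv (SB : ∀ {M : Type u} [MetricSpace M] [CompleteSpace M] [SecondCountableTopology M]
    [MeasurableSpace M] [BorelSpace M] (m : Measure M) (n : ℕ) (K : ℝ) (o : M)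
    (p : ℝ → M → M → ℝ), Prop) : Prop :=
  ∀ (M : Type u) [MetricSpace M] [CompleteSpace M] [SecondCountableTopology M]
    [MeasurableSpace M] [BorelSpace M] (m : Measure M) (n : ℕ) (K : ℝ) (o : M) (A : ℝ)
    (p : ℝ → M → M → ℝ), Env m n K o A p → SB m n K o p

theorem ci_H5 (hE4 : AllEnv.{u} fun m n K o p => SB_E4 m n K o p)
    (hG : AllEnv.{u} fun m n K o p => H852.SB_GOut m n K o p)
    (hRR : AllEnv.{u} fun m n K o p => SB_RR m n K o p)
    (hRel : AllEnv.{u} fun m n K o p => SB_Rel m n K o p) : H71.Blk_H5.{u} :=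
  H200.blk_H5_of fun M _ _ _ _ _ m n K o A p e =>
    H100.sb_h5 H597.blk_near H703.blk_H234 e
      (H852.sb_vx_of e (H254.sb_E1 e) (H937.sb_w e (H254.sb_E1 e)) (hE4 M m n K o A p e)
        (hG M m n K o A p e))
      (hRR M m n K o A p e) (hRel M m n K o A p e)

theorem ci_final (hR12 : H155.Blk_R12.{u})
    (hE4 : AllEnv.{u} fun m n K o p => SB_E4 m n K o p)
    (hG : AllEnv.{u} fun m n K o p => H852.SB_GOut m n K o p)
    (hRR : AllEnv.{u} fun m n K o p => SB_RR m n K o p)
    (hRel : AllEnv.{u} fun m n K o p => SB_Rel m n K o p) : H448.Final.{u} :=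
  H448.final_of
    (partA_of H751.blk_F' H446.blk_Maps (H744.blk_Drop_of (H607.blk_Low_of H446.blk_Maps))
      H744.blk_H6 (H155.blk_T hR12) H597.blk_near (ci_H5 hE4 hG hRR hRel) H703.blk_H234)
    H696.partB

end Vale.Agent.P242.H358
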